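/-
R335/EV/Tool: Lipschitz cut-offs, a Caccioppoli inequality and removal of the cut-off (block EV).
-/
import Crest.Agent.R335.T.Cmp

set_option autoImplicit false
set_option linter.unusedSectionVars false
set_option linter.unusedVariables false
set_option linter.unusedSimpArgs false

noncomputable section

namespace Crest.Agent.R335

open MeasureTheory Set Filter Topology Metric
open scoped ENNReal

variable {F F' G : X → ℝ}

theorem ev_aesm (h : HL eX F) : AEStronglyMeasurable F volume := h.1.aesm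

theorem ev_dot_eq (hG : HL eX G) (hF : HL eX F) :
    ∀ᵐ x : X, G x = F x → dot eX G G x = dot eX F F x := by
  filter_upwards [ae_all_iff.2 fun i => hG.wd_eq_of_eq hF i] with x hx he
  exact Finset.sum_congr rfl fun i _ => by rw [hx i he]

theorem ev_dot_zero (hG : HL eX G) : ∀ᵐ x : X, G x = 0 → dot eX G G x = 0 := by
  filter_upwards [ae_all_iff.2 fun i => hG.wd_zero i] with x hx he
  exact Finset.sum_eq_zero fun i _ => by rw [hx i he, mul_zero]

theorem ev_dot_const (c : ℝ) : ∀ᵐ x : X, dot eX (fun _ : X => c) (fun _ => c) x = 0 := by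
  filter_upwards [ae_all_iff.2 fun i => wd_const (eX i) c] with x hx
  exact Finset.sum_eq_zero fun i _ => by rw [hx i, mul_zero]

theorem ev_dot_le (hG : HL eX G) (hF : HL eX F) (hF' : HL eX F') (h : ∀ x, G x = F x ∨ G x = F' x)
    {L : ℝ} (h1 : ∀ᵐ x : X, dot eX F F x ≤ L) (h2 : ∀ᵐ x : X, dot eX F' F' x ≤ L) :
    ∀ᵐ x : X, dot eX G G x ≤ L := by
  filter_upwards [ev_dot_eq hG hF, ev_dot_eq hG hF', h1, h2] with x a1 a2 a3 a4
  rcases h x with h | h
  · rwa [a1 h]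
  · rwa [a2 h]

theorem ev_affine (hF : LH eX F) (c d : ℝ) : LH eX (fun x => c * F x + d) ∧
    ∀ᵐ x : X, dot eX (fun x => c * F x + d) (fun x => c * F x + d) x = c ^ 2 * dot eX F F x := by
  refine ⟨(hF.const_mul c).add (LH.const d), ?_⟩
  filter_upwards [ae_all_iff.2 fun i => (hF.1.const_mul c).wd_add (LH.const d).1 i,
    ae_all_iff.2 fun i => hF.1.wd_const_mul c i, ae_all_iff.2 fun i => wd_const (eX i) d] with x a1 a2 a3
  simp only [dot, a1, a2, a3, Finset.mul_sum]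
  exact Finset.sum_congr rfl fun i _ => by ring

/-- clamp to `[0,1]` -/
def evc (F : X → ℝ) (x : X) : ℝ := max (min (F x) 1) 0

theorem evc_nn (F : X → ℝ) (x : X) : 0 ≤ evc F x := le_max_right _ _
theorem evc_le (F : X → ℝ) (x : X) : evc F x ≤ 1 := max_le (min_le_right _ _) zero_le_one
theorem evc_zero {x : X} (h : F x ≤ 0) : evc F x = 0 := max_eq_right ((min_le_left _ _).trans h)
theorem evc_one {x : X} (h : 1 ≤ F x) : evc F x = 1 := by
  unfold evc; rw [min_eq_right h, max_eq_left zero_le_one]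

theorem evc_lh (hF : LH eX F) {L : ℝ} (hL : 0 ≤ L) (h : ∀ᵐ x : X, dot eX F F x ≤ L) :
    LH eX (evc F) ∧ ∀ᵐ x : X, dot eX (evc F) (evc F) x ≤ L := by
  have h1 : LH eX fun x => min (F x) 1 := hF.min (LH.const 1)
  have h2 : LH eX (evc F) := h1.max (LH.const 0)
  have hc : ∀ c : ℝ, ∀ᵐ x : X, dot eX (fun _ : X => c) (fun _ => c) x ≤ L := fun c =>
    (ev_dot_const c).mono fun x hx => hx.le.trans hL
  exact ⟨h2, ev_dot_le h2.1 h1.1 (LH.const 0).1 (fun x => max_choice _ _)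
    (ev_dot_le h1.1 hF.1 (LH.const 1).1 (fun x => min_choice _ _) h (hc 1)) (hc 0)⟩

theorem ev_coord (i : Fin 3) : LH eX (fun x : X => x i) ∧
    ∀ j, wd (eX j) (fun x : X => x i) =ᵐ[volume] fun _ => if i = j then 1 else 0 := by
  have h : ContDiff ℝ 1 fun x : X => x i := (EuclideanSpace.proj (𝕜 := ℝ) i : X →L[ℝ] ℝ).contDiff
  refine ⟨LH.of_contDiff h, fun j => (wd_contDiff h (eX j)).trans (ae_of_all _ fun x => ?_)⟩
  have : fderiv ℝ (fun x : X => x i) x = (EuclideanSpace.proj (𝕜 := ℝ) i : X →L[ℝ] ℝ) :=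
    (EuclideanSpace.proj (𝕜 := ℝ) i : X →L[ℝ] ℝ).fderiv
  simp only [this]
  simp [eX, Pi.single_apply]

theorem ev_coord_dot (i : Fin 3) : ∀ᵐ x : X, dot eX (fun x : X => x i) (fun x : X => x i) x ≤ 1 := by
  filter_upwards [ae_all_iff.2 (ev_coord i).2] with x hx
  simp [dot, hx]

theorem ev_norm : LH eX (fun x : X => ‖x‖) ∧
    ∀ᵐ x : X, dot eX (fun x : X => ‖x‖) (fun x : X => ‖x‖) x ≤ 1 := by
  have h := lh_norm (0 : X)
  simp only [sub_zero] at h
  refine ⟨h.1, ?_⟩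
  filter_upwards [ae_all_iff.2 h.2] with x hx
  simp only [dot, hx, ← sq, div_pow, ← Finset.sum_div, cov_sq]
  exact div_self_le_one _

theorem ev_sx_cont : Continuous sx := by unfold sx; fun_prop

theorem ev_sx : LH eX sx ∧ ∀ᵐ x : X, dot eX sx sx x ≤ 1 := by
  have h := (ev_coord 0).1.1.norm2 (ev_coord 1).1.1
  refine ⟨⟨h.1, LocBdd.of_continuous ev_sx_cont⟩, ?_⟩
  filter_upwards [ae_all_iff.2 h.2, ae_all_iff.2 (ev_coord 0).2, ae_all_iff.2 (ev_coord 1).2]
    with x a1 a2 a3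
  have : ∀ i, wd (eX i) sx x = (x 0 * (if 0 = i then 1 else 0) + x 1 * if 1 = i then 1 else 0) /
      √(x 0 ^ 2 + x 1 ^ 2) := fun i => by rw [← a2 i, ← a3 i]; exact a1 i
  simp only [dot, this, Fin.sum_univ_three]
  simp only [if_true, Fin.reduceEq, if_false, mul_one, mul_zero, add_zero, zero_add, zero_div, ← sq,
    div_pow, ← add_div]
  rw [Real.sq_sqrt (by positivity)]
  simp only [ne_eq, OfNat.ofNat_ne_zero, not_false_eq_true, zero_pow, add_zero]
  exact div_self_le_one (x 0 ^ 2 + x 1 ^ 2)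

theorem ev_dot_mul (hF : LH eX F) (hG : LH eX G) {α β : ℝ}
    (h : ∀ p q : ℝ, (p + q) ^ 2 ≤ α * p ^ 2 + β * q ^ 2) :
    ∀ᵐ x : X, dot eX (fun x => F x * G x) (fun x => F x * G x) x ≤
      α * (G x ^ 2 * dot eX F F x) + β * (F x ^ 2 * dot eX G G x) := by
  filter_upwards [ae_all_iff.2 fun i => hF.wd_mul hG i] with x hx
  simp only [dot, hx, Finset.mul_sum, ← Finset.sum_add_distrib]
  refine Finset.sum_le_sum fun i _ => ?_
  have := h (wd (eX i) F x * G x) (F x * wd (eX i) G x)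
  nlinarith

theorem ev_two (p q : ℝ) : (p + q) ^ 2 ≤ 2 * p ^ 2 + 2 * q ^ 2 := by nlinarith [sq_nonneg (p - q)]

theorem ev_six (p q : ℝ) : (p + q) ^ 2 ≤ 6 / 5 * p ^ 2 + 6 * q ^ 2 := by
  nlinarith [sq_nonneg (p - 5 * q)]

theorem ev_lt_mul {φ : X → ℝ} (hφ : LT eX φ) (hF : LH eX F) : LT eX fun x => φ x * F x := by
  simpa only [mul_comm] using hF.mul_LT hφ

theorem ev_lt_sq {φ : X → ℝ} (hφ : LT eX φ) : LT eX fun x => φ x ^ 2 := by
  simpa only [sq] using hφ.1.mul_LT hφ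

/-- a locally bounded weight times the square of a test function is integrable -/
theorem ev_int_sq {φ w : X → ℝ} (hφ : LT eX φ) (hw : AEStronglyMeasurable w volume) (hw' : LocBdd w) :
    Integrable fun x => w x * φ x ^ 2 := by
  have := (ev_lt_sq hφ).integrable_mul (LocL2.of_locBdd hw hw') (LH.const (b := eX) 1).1.1
  simpa only [mul_one] using this

theorem ev_int_dot {φ w : X → ℝ} (hφ : LT eX φ) (hw : AEStronglyMeasurable w volume) (hw' : LocBdd w) :
    Integrable fun x => w x * dot eX φ φ x := hφ.1.1.integrable_mul_dot hw hw' hφ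

theorem ev_cacc {S : Set X} {w y φ a s : X → ℝ} (h : Sub eX S w a s) (hw : HL eX w) (hy : LH eX y)
    (hφ : LT eX φ) (hy0 : ∀ᵐ x : X, 0 ≤ y x) (hyw : ∀ᵐ x : X, w x = y x ∨ y x = 0)
    (h0 : ∀ᵐ x : X, x ∉ S → y x * φ x ^ 2 = 0) :
    ∫ x, a x * y x * (y x * φ x ^ 2) ≤
      (∫ x, y x ^ 2 * dot eX φ φ x) + ∫ x, s x * (y x * φ x ^ 2) := by
  have hψ : LT eX fun x => y x * φ x ^ 2 := hy.mul_LT (ev_lt_sq hφ)
  have h1 := h _ hψ (hy0.mono fun x hx => by positivity) h0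
  have h2 : ∫ x, a x * w x * (y x * φ x ^ 2) = ∫ x, a x * y x * (y x * φ x ^ 2) := by
    refine integral_congr_ae (hyw.mono fun x hx => ?_)
    rcases hx with hx | hx <;> simp [hx]
  have hyφ := (hy.mul_LT hφ).h1
  have h3 : dir eX w (fun x => y x * φ x ^ 2) =
      (∫ x, dot eX (fun x => y x * φ x) (fun x => y x * φ x) x) - ∫ x, y x ^ 2 * dot eX φ φ x := by
    rw [← integral_sub (hyφ.integrable_dot hyφ)
      (ev_int_dot hφ (ev_aesm hy.sq.1.1) hy.sq.1.2)]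
    refine integral_congr_ae ?_
    filter_upwards [hy.dot_mul hφ.1, hyw, ae_all_iff.2 fun i => hw.wd_eq_of_eq hy.1 i,
      ae_all_iff.2 fun i => hψ.1.1.wd_zero i] with x a1 a2 a3 a4
    rw [a1, add_sub_cancel_right]
    refine Finset.sum_congr rfl fun i _ => ?_
    rcases a2 with a2 | a2
    · rw [a3 i a2]
    · rw [a4 i (by simp [a2]), mul_zero, mul_zero]
  have h4 : 0 ≤ ∫ x, dot eX (fun x => y x * φ x) (fun x => y x * φ x) x :=
    integral_nonneg fun x => dot_self_nonneg _ x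
  linarith

theorem ev_int_bdd {W ζ : X → ℝ} (hW : Integrable W) (hζ : AEStronglyMeasurable ζ volume) {k : ℝ}
    (hk : ∀ᵐ x : X, |ζ x| ≤ k) : Integrable fun x => W x * ζ x ^ 2 := by
  refine hW.mul_bdd (c := k ^ 2) (hζ.pow 2) (hk.mono fun x hx => ?_)
  rw [Real.norm_eq_abs, abs_pow]
  exact pow_le_pow_left₀ (abs_nonneg _) hx 2

/-- removal of the cut-off -/
theorem ev_limit {W Q ζ : X → ℝ} (hW : Integrable W) (hQ : Integrable Q) (hQ0 : ∀ x, 0 ≤ Q x) {M : ℝ}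
    (hQM : ∀ᵐ x : X, |Q x| ≤ M) {A : ℝ} (hA : 0 ≤ A)
    (H : ∀ φ : X → ℝ, LT eX φ → ∫ x, W x * φ x ^ 2 ≤ A * ∫ x, Q x * dot eX φ φ x)
    (hζ : HL eX ζ) {k : ℝ} (hk : ∀ᵐ x : X, |ζ x| ≤ k) (hd : Integrable (dot eX ζ ζ)) :
    ∫ x, W x * ζ x ^ 2 ≤ 2 * A * ∫ x, Q x * dot eX ζ ζ x := by
  obtain ⟨χ, C, h1, h2, h3, h4⟩ := exists_cutoff (E := X)
  have hζ' : LH eX ζ := ⟨hζ, fun R => ⟨k, hk.mono fun x hx _ => hx⟩⟩
  have hT : ∀ n, Tst (χ n) := fun n => ⟨(h1 n).1.of_le (by norm_num), (h1 n).2⟩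
  have hQζ := ev_int_bdd hQ (ev_aesm hζ) hk
  have hQd : Integrable fun x => Q x * dot eX ζ ζ x :=
    hd.bdd_mul hQ.aestronglyMeasurable (hQM.mono fun x hx => hx)
  have key : ∀ n : ℕ, ∫ x, W x * (χ n x * ζ x) ^ 2 ≤
      A * (2 * ((C / (n + 1)) ^ 2 * ∫ x, Q x * ζ x ^ 2) + 2 * ∫ x, Q x * dot eX ζ ζ x) := by
    intro n
    have hφ : LT eX fun x => χ n x * ζ x := ev_lt_mul (LT.of_tst (hT n)) hζ'
    refine (H _ hφ).trans (mul_le_mul_of_nonneg_left ?_ hA)
    rw [← integral_const_mul, ← integral_const_mul, ← integral_const_mul,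
      ← integral_add ((hQζ.const_mul _).const_mul _) (hQd.const_mul _)]
    refine integral_mono_ae (ev_int_dot hφ hQ.aestronglyMeasurable
      fun R => ⟨M, hQM.mono fun x hx _ => hx⟩) (((hQζ.const_mul _).const_mul _).add (hQd.const_mul _)) ?_
    filter_upwards [ev_dot_mul (LH.of_contDiff (hT n).1) hζ' ev_two,
      ae_all_iff.2 fun i => wd_contDiff (hT n).1 (eX i)] with x a1 a2
    have a3 : dot eX (χ n) (χ n) x ≤ (C / (n + 1)) ^ 2 := by
      simp only [dot, a2, ← sq, sum_fderiv_sq]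
      exact pow_le_pow_left₀ (norm_nonneg _) (h4 n x) 2
    have a4 : χ n x ^ 2 ≤ 1 := pow_le_one₀ (h2 n x).1 (h2 n x).2
    have a5 := dot_self_nonneg (b := eX) ζ x
    have a6 : dot eX (fun x => χ n x * ζ x) (fun x => χ n x * ζ x) x ≤
        2 * ((C / (n + 1)) ^ 2 * ζ x ^ 2) + 2 * dot eX ζ ζ x := by
      nlinarith [mul_le_mul_of_nonneg_left a3 (sq_nonneg (ζ x)), mul_le_mul_of_nonneg_right a4 a5]
    have := mul_le_mul_of_nonneg_left a6 (hQ0 x)
    linarith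
  have l1 : Tendsto (fun n : ℕ => ∫ x, W x * (χ n x * ζ x) ^ 2) atTop (𝓝 (∫ x, W x * ζ x ^ 2)) := by
    refine tendsto_integral_of_dominated_convergence (fun x => |W x * ζ x ^ 2|)
      (fun n => hW.aestronglyMeasurable.mul (((hT n).cont.aestronglyMeasurable.mul (ev_aesm hζ)).pow 2))
      (ev_int_bdd hW (ev_aesm hζ) hk).abs (fun n => ae_of_all _ fun x => ?_) (ae_of_all _ fun x => ?_)
    · rw [Real.norm_eq_abs, abs_mul, abs_mul, abs_of_nonneg (sq_nonneg (ζ x)),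
        abs_of_nonneg (sq_nonneg (χ n x * ζ x)), mul_pow]
      refine mul_le_mul_of_nonneg_left ?_ (abs_nonneg _)
      exact mul_le_of_le_one_left (sq_nonneg _) (pow_le_one₀ (h2 n x).1 (h2 n x).2)
    · refine tendsto_const_nhds.congr' ?_
      filter_upwards [eventually_ge_atTop ⌈‖x‖⌉₊] with n hn
      rw [h3 n x ((Nat.le_ceil _).trans (by exact_mod_cast hn)), one_mul]
  have l2 : Tendsto (fun n : ℕ =>
      A * (2 * ((C / (n + 1)) ^ 2 * ∫ x, Q x * ζ x ^ 2) + 2 * ∫ x, Q x * dot eX ζ ζ x)) atTop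
      (𝓝 (A * (2 * ((C * 0) ^ 2 * ∫ x, Q x * ζ x ^ 2) + 2 * ∫ x, Q x * dot eX ζ ζ x))) := by
    have := (tendsto_one_div_add_atTop_nhds_zero_nat (𝕜 := ℝ)).const_mul C
    simp only [mul_one_div] at this
    exact (((this.pow 2).mul_const _).const_mul _).add_const _ |>.const_mul _
  have := le_of_tendsto_of_tendsto' l1 l2 key
  linarith

end Crest.Agent.R335
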