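/-
R335/EV/Core: the weighted inequality in the upper half space (block EV).
-/
import Crest.Agent.R335.EV.Tool
import Crest.Agent.R335.RT.Main
import Crest.Agent.R335.Assemble

set_option autoImplicit false
set_option linter.unusedSectionVars false
set_option linter.unusedVariables false
set_option linter.unusedSimpArgs false

noncomputable section

namespace Crest.Agent.R335

open MeasureTheory Set Filter Topology Metric
open scoped ENNReal

theorem ev_point {Λ a t Y y e : ℝ} (hΛ : 1 ≤ Λ) (ha : 79 / 100 ≤ a) (he : 0 ≤ e) (hy0 : 0 ≤ y)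
    (hy : y ≤ Y) (hY : Y ≤ y + 2 * Λ * e) (ht0 : 0 ≤ t) (ht1 : t ≤ 1) :
    1 / 40 * Y ^ 2 ≤ a * t ^ 2 * Y ^ 2 + a * (1 - t) ^ 2 * y ^ 2 - 6 / 5 * (25 / 196) * (Y ^ 2 + y ^ 2) -
      2 * Λ * (Λ * e) * y * (1 - t) ^ 2 + 200 * Λ ^ 4 * e ^ 2 := by
  have hY0 : 0 ≤ Y := hy0.trans hy
  have hs0 : 0 ≤ (1 - t) ^ 2 := sq_nonneg _
  have hs1 : (1 - t) ^ 2 ≤ 1 := by nlinarith
  have hw : Λ * e ≤ Λ ^ 2 * e := by nlinarith [mul_nonneg (sub_nonneg.2 hΛ) (mul_nonneg (zero_le_one.trans hΛ) he)]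
  have hw0 : 0 ≤ Λ ^ 2 * e := by positivity
  set w := Λ ^ 2 * e with hwd
  have h1 : Y ^ 2 - 4 * w * Y ≤ y ^ 2 := by nlinarith
  have h2 : y ^ 2 ≤ Y ^ 2 := by nlinarith
  have h3 : 79 / 100 * (t ^ 2 * Y ^ 2) ≤ a * t ^ 2 * Y ^ 2 := by
    rw [mul_assoc]; exact mul_le_mul_of_nonneg_right ha (by positivity)
  have h4 : 79 / 100 * ((1 - t) ^ 2 * y ^ 2) ≤ a * (1 - t) ^ 2 * y ^ 2 := by
    rw [mul_assoc]; exact mul_le_mul_of_nonneg_right ha (by positivity)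
  have h5 : (1 - t) ^ 2 * Y ^ 2 - 4 * w * Y ≤ (1 - t) ^ 2 * y ^ 2 := by
    nlinarith [mul_le_mul_of_nonneg_left h1 hs0, mul_le_mul_of_nonneg_right hs1 (mul_nonneg hw0 hY0)]
  have h6 : 2 * Λ * (Λ * e) * y * (1 - t) ^ 2 ≤ 2 * w * Y := by
    have : 2 * Λ * (Λ * e) * y * (1 - t) ^ 2 = 2 * w * (y * (1 - t) ^ 2) := by rw [hwd]; ring
    rw [this]
    exact mul_le_mul_of_nonneg_left (by nlinarith) (by positivity)
  have h7 : 1 / 2 * Y ^ 2 ≤ t ^ 2 * Y ^ 2 + (1 - t) ^ 2 * Y ^ 2 := by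
    nlinarith [mul_nonneg (sq_nonneg (2 * t - 1)) (sq_nonneg Y)]
  have h8 : 200 * Λ ^ 4 * e ^ 2 = 200 * w ^ 2 := by rw [hwd]; ring
  rw [h8]
  nlinarith [sq_nonneg (Y - 50 * w)]

theorem ev_pt4 {Λ a t Y y e P H z d L dA dB : ℝ} (hΛ : 1 ≤ Λ) (ha : 79 / 100 ≤ a) (he : 0 ≤ e)
    (hy0 : 0 ≤ y) (hy : y ≤ Y) (hY : Y ≤ y + 2 * Λ * e) (ht0 : 0 ≤ t) (ht1 : t ≤ 1) (h1 : P / 2 ≤ Y)
    (h2 : Y ≤ P) (hH : e ^ 2 ≤ H) (hd : 0 ≤ d) (hL : L ≤ 25 / 196)
    (hA : dA ≤ 6 / 5 * (z ^ 2 * L) + 6 * (t ^ 2 * d))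
    (hB : dB ≤ 6 / 5 * (z ^ 2 * L) + 6 * ((1 - t) ^ 2 * d)) :
    P ^ 2 * z ^ 2 ≤ 160 * (a * Y * (Y * (t * z) ^ 2) - Y ^ 2 * dA + (a * y * (y * ((1 - t) * z) ^ 2) -
      y ^ 2 * dB - (0 + 2 * Λ * (Λ * e)) * (y * ((1 - t) * z) ^ 2))) +
      (960 * (P ^ 2 * d) + 32000 * Λ ^ 4 * (H * z ^ 2)) := by
  have hz := sq_nonneg z
  have hY0 : 0 ≤ Y := hy0.trans hy
  have b7 : P ^ 2 ≤ 4 * Y ^ 2 := by nlinarith
  have b8 : Y ^ 2 ≤ P ^ 2 := pow_le_pow_left₀ hY0 h2 2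
  have c6 := mul_le_mul_of_nonneg_right (ev_point hΛ ha he hy0 hy hY ht0 ht1) hz
  have c8 : y ^ 2 ≤ P ^ 2 := pow_le_pow_left₀ hy0 (hy.trans h2) 2
  have c9 : t ^ 2 + (1 - t) ^ 2 ≤ 1 := by nlinarith
  have d1 := mul_le_mul_of_nonneg_left hA (sq_nonneg Y)
  have d1' := mul_le_mul_of_nonneg_left hL (mul_nonneg (sq_nonneg Y) hz)
  have d1'' := mul_le_mul_of_nonneg_right b8 (mul_nonneg (sq_nonneg t) hd)
  have d2 := mul_le_mul_of_nonneg_left hB (sq_nonneg y)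
  have d2' := mul_le_mul_of_nonneg_left hL (mul_nonneg (sq_nonneg y) hz)
  have d2'' := mul_le_mul_of_nonneg_right c8 (mul_nonneg (sq_nonneg (1 - t)) hd)
  have d3 := mul_le_mul_of_nonneg_right c9 (mul_nonneg (sq_nonneg P) hd)
  have d4 := mul_le_mul_of_nonneg_right hH (mul_nonneg (pow_nonneg (zero_le_one.trans hΛ) 4) hz)
  have d5 := mul_le_mul_of_nonneg_right b7 hz
  linarith

theorem ev_pt2 {a Y P z d dA r : ℝ} (ha : 79 / 100 ≤ a) (hY0 : 0 ≤ Y) (h1 : P / 2 ≤ Y)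
    (h2 : Y ≤ P) (hd : 0 ≤ d) (hA : dA ≤ 6 / 5 * (z ^ 2 * 0) + 6 * (1 ^ 2 * d)) (hr : 0 ≤ r) :
    P ^ 2 * z ^ 2 ≤ 160 * (a * Y * (Y * (1 * z) ^ 2) - Y ^ 2 * dA) + (960 * (P ^ 2 * d) + r) := by
  have hz := sq_nonneg z
  have b7 : P ^ 2 ≤ 4 * Y ^ 2 := by nlinarith
  have b8 : Y ^ 2 ≤ P ^ 2 := pow_le_pow_left₀ hY0 h2 2
  have c6 := mul_le_mul_of_nonneg_left hA (sq_nonneg Y)
  have c7 := mul_le_mul_of_nonneg_right ha (mul_nonneg (sq_nonneg Y) hz)
  have c8 := mul_le_mul_of_nonneg_right b7 hz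
  have c9 := mul_le_mul_of_nonneg_right b8 hd
  have c10 := mul_nonneg (sq_nonneg Y) hz
  linarith

theorem ev_pt3 {Λ e P H z d : ℝ} (hΛ : 1 ≤ Λ) (hP : 0 ≤ P) (h1 : P ≤ Λ * e) (hH : e ^ 2 ≤ H) (hd : 0 ≤ d) :
    P ^ 2 * z ^ 2 ≤ 960 * (P ^ 2 * d) + 32000 * Λ ^ 4 * (H * z ^ 2) := by
  have c6 : P ^ 2 ≤ (Λ * e) ^ 2 := pow_le_pow_left₀ hP h1 2
  have c7 : Λ ^ 2 ≤ 32000 * Λ ^ 4 := by nlinarith [one_le_pow₀ (n := 2) hΛ]
  have c8 : P ^ 2 ≤ 32000 * Λ ^ 4 * H := by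
    rw [mul_pow] at c6
    exact c6.trans (mul_le_mul c7 hH (sq_nonneg _) (by positivity))
  have c9 := mul_le_mul_of_nonneg_right c8 (sq_nonneg z)
  have c10 := mul_nonneg (sq_nonneg P) hd
  linarith

theorem ev_lin {f0 f1 f2 f3 f4 f5 f6 f7 : X → ℝ} (h0 : Integrable f0) (h1 : Integrable f1)
    (h2 : Integrable f2) (h3 : Integrable f3) (h4 : Integrable f4) (h5 : Integrable f5)
    (h6 : Integrable f6) (h7 : Integrable f7) {a b c : ℝ}
    (h : ∀ᵐ x : X, f0 x ≤ a * (f1 x - f2 x + (f3 x - f4 x - f5 x)) + (b * f6 x + c * f7 x)) :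
    ∫ x, f0 x ≤ a * ((∫ x, f1 x) - (∫ x, f2 x) + ((∫ x, f3 x) - (∫ x, f4 x) - ∫ x, f5 x)) +
      (b * (∫ x, f6 x) + c * ∫ x, f7 x) := by
  have k1 : Integrable fun x => f1 x - f2 x := h1.sub h2
  have k2 : Integrable fun x => f3 x - f4 x := h3.sub h4
  have k3 : Integrable fun x => f3 x - f4 x - f5 x := k2.sub h5
  have k4 : Integrable fun x => f1 x - f2 x + (f3 x - f4 x - f5 x) := k1.add k3
  have k5 : Integrable fun x => b * f6 x + c * f7 x := (h6.const_mul b).add (h7.const_mul c)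
  rw [← integral_sub h1 h2, ← integral_sub h3 h4, ← integral_sub k2 h5, ← integral_add k1 k3,
    ← integral_const_mul, ← integral_const_mul, ← integral_const_mul,
    ← integral_add (h6.const_mul b) (h7.const_mul c), ← integral_add (k4.const_mul a) k5]
  exact integral_mono_ae h0 ((k4.const_mul a).add k5) h

variable {c C1 C2 D l : ℝ} {g u : X → ℝ} {eg eu M η m2 de Λ K R0 ϱ δ0 δ : ℝ} {f : Fns} {P b : X → ℝ}

theorem ev_e_lh (ch : Chan c C1 D l g u eg eu M η m2 de f) : LH eX f.e := by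
  have h1 : H1 eX f.e := ((((ch.he1.const_mul 2).add ch.he2).add ch.he3).const_mul (√6)⁻¹).congr
    (ae_of_all _ fun x => by simp only [Fns.e]; ring)
  refine h1.lh (M := M) ?_
  filter_upwards [ch.e_le_R, ch.R_bdd] with x a1 a2
  exact a1.trans ((le_abs_self _).trans a2)

theorem ev_plane (ch : Chan c C1 D l g u eg eu M η m2 de f) (pr : Prof Λ C2 K R0 ϱ D l g δ0 M m2 f) :
    ∀ᵐ x : X, |x 2| < 1 → f.R x ≤ 2 * f.e x + 2 * f.O x := by
  have H : ∀ p : ℤ × ℤ, ∀ᵐ x : X, x ∈ ball (!₂[(p.1 : ℝ), (p.2 : ℝ), 0] : X) 8 →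
      f.R x ≤ 2 * f.e x + 2 * f.O x := fun p => by
    obtain ⟨α, L, m, h1, h2, -, -, h3, h4⟩ := pr.bc (!₂[(p.1 : ℝ), (p.2 : ℝ), 0]) (Or.inr (by simp))
    filter_upwards [h4, ch.pyth] with x a1 a2 hx
    obtain ⟨b1, -, b2, -⟩ := a1 hx
    obtain ⟨-, b3, -, b4⟩ := a2
    have b5 := (ch.nn x).2.2.1
    have b6 : 0 ≤ f.e x := by linarith
    have b7 : α / 20 * f.d x ^ 2 ≤ f.d x ^ 2 := mul_le_of_le_one_left (sq_nonneg _) (by linarith)
    refine (abs_le_of_sq_le_sq' ?_ (by positivity)).2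
    nlinarith [sq_nonneg (f.No x), mul_nonneg b5 b6, sq_nonneg (f.e x), sq_nonneg (f.O x)]
  filter_upwards [ae_all_iff.2 H] with x hx h1
  refine hx (⌊x 0⌋, ⌊x 1⌋) ?_
  rw [mem_ball, EuclideanSpace.dist_eq, Real.sqrt_lt' (by norm_num), Fin.sum_univ_three]
  simp only [Real.dist_eq, sq_abs]
  simp
  rw [abs_lt] at h1
  have a1 := Int.fract_nonneg (x 0)
  have a2 := Int.fract_lt_one (x 0)
  have a3 := Int.fract_nonneg (x 1)
  have a4 := Int.fract_lt_one (x 1)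
  nlinarith

theorem ev_sig_meas (r h : ℝ) : MeasurableSet (Sig r h) :=
  ((isClosed_le continuous_norm continuous_const).union
    (isClosed_le (f := fun x : X => |x 2|) (by fun_prop) continuous_const)).measurableSet

theorem ev_cs (P b : X → ℝ) (x : X) : 0 ≤ cs P b x ∧ cs P b x ≤ 1 :=
  ⟨div_nonneg (le_max_right _ _) (Real.sqrt_nonneg _), div_le_one_of_le₀
    (max_le (Real.le_sqrt_of_sq_le (by nlinarith [sq_nonneg (P x)])) (Real.sqrt_nonneg _))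
    (Real.sqrt_nonneg _)⟩

theorem ev_aa (hm : |m2 - 1| ≤ 1 / 100) {x : X} (h : ¬ (tp D x ≤ 20 ∨ tm D x ≤ 20)) :
    79 / 100 ≤ aa D m2 x := by
  rw [not_or, not_le, not_le] at h
  have h1 : 1 / tp D x ≤ 1 / 20 := one_div_le_one_div_of_le (by norm_num) h.1.le
  have h2 : 1 / tm D x ≤ 1 / 20 := one_div_le_one_div_of_le (by norm_num) h.2.le
  have h3 := (abs_le.1 hm).1
  unfold aa V
  rw [neg_div]
  linarith

theorem ev_core_norm (hD : 0 ≤ D) {x : X} (h : tp D x ≤ 20 ∨ tm D x ≤ 20) : ‖x‖ ≤ D + 20 := by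
  have hn : ‖nuc D‖ = D := by simp [nuc, abs_of_nonneg hD]
  rcases h with h | h
  · have := norm_add_le (x - nuc D) (nuc D)
    rw [sub_add_cancel] at this
    unfold tp at h; linarith
  · have := norm_sub_le (x + nuc D) (nuc D)
    rw [add_sub_cancel_right] at this
    unfold tm at h; linarith

theorem ev_core (hD : 0 ≤ D) (ch : Chan c C1 D l g u eg eu M η m2 de f)
    (pr : Prof Λ C2 K R0 ϱ D l g δ0 M m2 f) (ce : Cert δ P b f.R) (hδ : 0 ≤ δ) {H : X → ℝ}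
    (hH : AEStronglyMeasurable H volume) (hHb : LocBdd H) (hH0 : ∀ x, 0 ≤ H x)
    (hle : ∀ᵐ x : X, 0 < x 2 → x 2 < 14 / 5 ∨ ‖x‖ < 2 * R0 + 14 / 5 → f.e x ^ 2 ≤ H x)
    {ζ : X → ℝ} (hζ : LT eX ζ) :
    ∫ x, Hs.indicator (fun x => P x ^ 2) x * ζ x ^ 2 ≤
      960 * (∫ x, P x ^ 2 * dot eX ζ ζ x) + 32000 * Λ ^ 4 * ∫ x, H x * ζ x ^ 2 := by
  have hΛ := pr.Λ_ge
  have hR0 := pr.R0_ge
  obtain ⟨hy, hyb, hsub⟩ := stRtwo δ P b f.R M ce hδ ch.hR (locPos_R ch pr.pos) ch.R_bdd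
  set Y := yy P b f.R with hYdef
  have hP := (ce.lh ch.R_bdd).1
  have he := ev_e_lh ch
  have hY0 : ∀ᵐ x : X, 0 ≤ Y x := hyb.mono fun x hx => by linarith [hx.1, ce.P_nn x]
  -- the subsolution `Y`
  have hm1 : MeasurableSet (Hs ∩ univ) := measurableSet_Hs.inter MeasurableSet.univ
  have hcs : LI (Hs ∩ univ) (cs P b) := LI.of_bdd hm1
    ((ce.mb.max measurable_const).div ((ce.mP.pow_const 2).add (ce.mb.pow_const 2)).sqrt).aestronglyMeasurable
    fun R => ⟨1, ae_of_all _ fun x _ _ => by rw [abs_of_nonneg (ev_cs P b x).1]; exact (ev_cs P b x).2⟩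
  have hA : Sub eX (Hs ∩ univ) Y (aa D m2) fun _ => 0 :=
    (hsub univ _ MeasurableSet.univ (li_aa D m2) ch.subR).change hm1 hy
      (((li_aa D m2).mono (subset_univ _)).add (hcs.const_mul (2 * δ)))
      ((li_aa D m2).mono (subset_univ _)) (LI.const 0) (LI.const 0) (by
        filter_upwards [hY0] with x a1 _
        have := mul_nonneg (mul_nonneg hδ (ev_cs P b x).1) a1
        simp only [Pi.zero_apply]
        linarith)
  -- the subsolution `w`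
  have hm2 : MeasurableSet (Hs ∩ Sig (5 * R0) 8) := measurableSet_Hs.inter (ev_sig_meas _ _)
  have hse : LH eX fun x => 2 * Λ * (Λ * f.e x) := (he.const_mul Λ).const_mul _
  have hB : Sub eX (Hs ∩ Sig (5 * R0) 8) (fun x => Y x + 2 * Λ * (-1 * f.e x)) (aa D m2)
      fun x => 0 + 2 * Λ * (Λ * f.e x) :=
    (hA.mono (inter_subset_inter_right _ (subset_univ _))).add
      (((pr.sube (-1) (by simp)).const_mul (he.const_mul _).1 (by positivity)).mono inter_subset_right)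
      hm2 hy ((he.const_mul _).const_mul _) ((li_aa D m2).mono (subset_univ _)) (LI.const 0)
      (LI.of_bdd hm2 (ev_aesm hse.1) fun R => (hse.2 R).imp fun m hm => hm.mono fun x hx _ => hx)
  have hw : LH eX fun x => Y x + 2 * Λ * (-1 * f.e x) := hy.add ((he.const_mul _).const_mul _)
  set w := fun x => Y x + 2 * Λ * (-1 * f.e x) with hwdef
  have hep := pr.pos.ae_pos
  have hst : Strip fun x => max (w x) 0 := by
    refine ch.strip.mono ch.hO.hl.1 (ev_aesm hw.posPart.1) fun R => ⟨2, 1, one_pos, ?_⟩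
    filter_upwards [ev_plane ch pr, hyb, hep] with x a1 a2 a3 h1 h2 _
    have b1 := a1 (by rw [abs_of_pos h1]; exact h2)
    have b2 := (ch.nn x).2.2.1
    rw [abs_of_nonneg (le_max_right _ _), abs_of_nonneg b2]
    refine max_le ?_ (by positivity)
    simp only [hwdef]
    nlinarith [a2.2.1, a2.2.2.1, mul_nonneg (sub_nonneg.2 hΛ) a3.le]
  have hyl := hw.posPart.indicator_Hs hst
  set y := Hs.indicator fun x => max (w x) 0 with hydef
  have hy0 : ∀ x, 0 ≤ y x := fun x => indicator_nonneg (fun x _ => le_max_right _ _) x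
  have hyn : ∀ x, x ∉ Hs → y x = 0 := fun x hx => indicator_of_notMem hx _
  have hyp : ∀ x, x ∈ Hs → y x = max (w x) 0 := fun x hx => indicator_of_mem hx _
  -- the partition
  have t1 := ev_affine (ev_coord 2).1 (5 / 14) 0
  have t2 := ev_affine ev_norm.1 (5 / 14) (-(5 / 7 * R0))
  have hθ := evc_lh (t1.1.min t2.1) (L := 25 / 196) (by norm_num)
    (ev_dot_le (t1.1.min t2.1).1 t1.1.1 t2.1.1 (fun x => min_choice _ _)
      (by filter_upwards [t1.2, ev_coord_dot 2] with x a1 a2; rw [a1]; linarith)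
      (by filter_upwards [t2.2, ev_norm.2] with x a1 a2; rw [a1]; linarith))
  set θ := evc fun x : X => min (5 / 14 * x 2 + 0) (5 / 14 * ‖x‖ + -(5 / 7 * R0)) with hθdef
  have hθn : ∀ x, x ∉ Hs → θ x = 0 := fun x hx => evc_zero (min_le_of_left_le (by
    have : x 2 ≤ 0 := not_lt.1 hx
    linarith))
  have hθc : ∀ x : X, ‖x‖ ≤ 2 * R0 → θ x = 0 := fun x hx => evc_zero (min_le_of_right_le (by linarith))
  have hθ1 : ∀ x : X, ¬ (x 2 < 14 / 5 ∨ ‖x‖ < 2 * R0 + 14 / 5) → θ x = 1 := fun x hx => by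
    rw [not_or, not_lt, not_lt] at hx
    exact evc_one (le_min (by linarith [hx.1]) (by linarith [hx.2]))
  have hθ' := ev_affine hθ.1 (-1) 1
  set θ' := fun x => -1 * θ x + 1 with hθ'def
  have hφ : LT eX fun x => θ x * ζ x := hθ.1.mul_LT hζ
  have hφ' : LT eX fun x => θ' x * ζ x := hθ'.1.mul_LT hζ
  have cA := ev_cacc hA hy.1 hy hφ hY0 (ae_of_all _ fun x => Or.inl rfl)
    (ae_of_all _ fun x hx => by rw [hθn x (fun h => hx ⟨h, mem_univ _⟩)]; simp)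
  have cB := ev_cacc hB hw.1 hyl hφ' (ae_of_all _ hy0) (ae_of_all _ fun x => by
      by_cases hx : x ∈ Hs
      · rw [hyp x hx]
        rcases le_total (w x) 0 with h | h
        · exact Or.inr (max_eq_right h)
        · exact Or.inl (max_eq_left h).symm
      · exact Or.inr (hyn x hx))
    (ae_of_all _ fun x hx => by
      by_cases hx' : x ∈ Hs
      · have h1 : ¬ (‖x‖ ≤ 5 * R0 ∨ |x 2| ≤ 8) := fun h => hx ⟨hx', h⟩
        rw [not_or, not_le, not_le, abs_of_pos hx'] at h1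
        have : θ x = 1 := hθ1 x (by rw [not_or, not_lt, not_lt]; constructor <;> linarith [h1.1, h1.2])
        simp [hθ'def, this]
      · rw [hyn x hx', zero_mul])
  have hP2 := hP.sq.1
  have i0 : Integrable fun x => Hs.indicator (fun x => P x ^ 2) x * ζ x ^ 2 :=
    ev_int_sq hζ ((ev_aesm hP2.1).indicator measurableSet_Hs) fun R => (hP2.2 R).imp fun m hm =>
      hm.mono fun x hx h => by
        have := hx h
        by_cases hx' : x ∈ Hs
        · rwa [indicator_of_mem hx']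
        · rw [indicator_of_notMem hx', abs_zero]; exact (abs_nonneg _).trans this
  have i1 := (li_aa D m2).integrable_mul MeasurableSet.univ (ev_aesm hy.1) hy.2
    (hy.mul_LT (ev_lt_sq hφ)) (ae_of_all _ fun x hx => absurd (mem_univ x) hx)
  have i2 := ev_int_dot hφ (ev_aesm hy.sq.1.1) hy.sq.1.2
  have i3 := (li_aa D m2).integrable_mul MeasurableSet.univ (ev_aesm hyl.1) hyl.2
    (hyl.mul_LT (ev_lt_sq hφ')) (ae_of_all _ fun x hx => absurd (mem_univ x) hx)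
  have i4 := ev_int_dot hφ' (ev_aesm hyl.sq.1.1) hyl.sq.1.2
  have i5 : Integrable fun x => (0 + 2 * Λ * (Λ * f.e x)) * (y x * (θ' x * ζ x) ^ 2) :=
    (ev_int_sq hφ' (ev_aesm (hse.mul hyl).1) (hse.mul hyl).2).congr (ae_of_all _ fun x => by simp only; ring)
  have i6 := ev_int_dot hζ (ev_aesm hP2.1) hP2.2
  have i7 := ev_int_sq hζ hH hHb
  have key := ev_lin i0 i1 i2 i3 i4 i5 i6 i7 (a := 160) (b := 960) (c := 32000 * Λ ^ 4) ?_
  · simp only [zero_mul, integral_zero] at cA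
    linarith
  filter_upwards [hyb, hY0, hep, hle, pr.core, hθ.2, hθ'.2, ev_dot_mul hθ.1 hζ.1 ev_six,
    ev_dot_mul hθ'.1 hζ.1 ev_six, ev_dot_zero hφ.1.1, ev_dot_zero hφ'.1.1, ev_dot_zero hθ'.1.1]
    with x a1 a2 a3 a4 a5 a6 a7 a8 a9 a10 a11 a12
  obtain ⟨b1, b2, b3, -⟩ := a1
  have b4 := dot_self_nonneg (b := eX) ζ x
  have b5 := hH0 x
  have b6 := ce.P_nn x
  have hz := sq_nonneg (ζ x)
  have hΛ0 : 0 ≤ Λ := zero_le_one.trans hΛ
  have hΛe : f.e x ≤ Λ * f.e x := le_mul_of_one_le_left a3.le hΛ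
  by_cases hx : x ∈ Hs
  swap
  · rw [indicator_of_notMem hx, a10 (by rw [hθn x hx, zero_mul]), hθn x hx, hyn x hx]
    simp only [zero_mul, mul_zero, ne_eq, OfNat.ofNat_ne_zero, not_false_eq_true, zero_pow, sub_zero, add_zero,
      zero_add]
    positivity
  rw [indicator_of_mem hx]
  by_cases hc : tp D x ≤ 20 ∨ tm D x ≤ 20
  · have c1 := ev_core_norm hD hc
    have c2 := hθc x (by linarith)
    have c3 := a5 hc
    have c4 : y x = 0 := by
      rw [hyp x hx]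
      exact max_eq_right (by simp only [hwdef]; linarith)
    have c5 := a4 hx (Or.inr (by linarith))
    rw [a10 (by rw [c2, zero_mul]), c2, c4]
    simp only [zero_mul, mul_zero, ne_eq, OfNat.ofNat_ne_zero, not_false_eq_true, zero_pow, sub_zero, add_zero,
      zero_add]
    exact ev_pt3 hΛ b6 (b3.trans c3) c5 b4
  have c1 := ev_aa (D := D) pr.m2_near hc
  by_cases h1 : x 2 < 14 / 5 ∨ ‖x‖ < 2 * R0 + 14 / 5
  swap
  · have c3 := hθ1 x h1
    have c4 : θ' x = 0 := by simp [hθ'def, c3]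
    rw [a12 c4] at a7
    have c5 : dot eX θ θ x = 0 := by linarith
    rw [c5, c3] at a8
    rw [a11 (by rw [c4, zero_mul]), c3, c4]
    have := ev_pt2 c1 a2 b1 b2 b4 a8 (r := 32000 * Λ ^ 4 * (H x * ζ x ^ 2)) (by positivity)
    linarith
  have c4 : y x ≤ Y x := by
    rw [hyp x hx]
    exact max_le (by simp only [hwdef]; linarith) a2
  have c5 : Y x ≤ y x + 2 * Λ * f.e x := by
    rw [hyp x hx]
    have := le_max_left (w x) 0
    simp only [hwdef] at this ⊢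
    linarith
  have c7 : θ' x = 1 - θ x := by simp only [hθ'def]; ring
  rw [a7, c7, neg_one_sq, one_mul] at a9
  rw [c7]
  exact ev_pt4 hΛ c1 a3.le (hy0 x) c4 c5 (evc_nn _ x) (evc_le _ x) b1 b2 (a4 hx h1) b4 a6 a8 a9

end Crest.Agent.R335
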