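/-
R335/EV/Inner: the Poincare inequality in the inner ball, from the one-body gap (block EV).
-/
import Crest.Agent.R335.EV.Tool

set_option autoImplicit false
set_option linter.unusedSectionVars false
set_option linter.unusedVariables false
set_option linter.unusedSimpArgs false

noncomputable section

namespace Crest.Agent.R335

open MeasureTheory Set Filter Topology Metric
open scoped ENNReal

variable {c C D : ℝ} {g u : X → ℝ} {eg eu : ℝ}

theorem ev_g_bdd (ob : OB c C D g u eg eu) : ∀ᵐ x : X, |g x| ≤ 2 * C := by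
  filter_upwards [ob.g_up] with x hx
  rw [abs_of_nonneg (ob.g_nn x)]
  have h1 : Real.exp (-(999 / 1000) * tp D x) ≤ 1 :=
    Real.exp_le_one_iff.2 (by have : 0 ≤ tp D x := norm_nonneg _; nlinarith)
  have h2 : Real.exp (-(999 / 1000) * tm D x) ≤ 1 :=
    Real.exp_le_one_iff.2 (by have : 0 ≤ tm D x := norm_nonneg _; nlinarith)
  nlinarith [ob.C_ge]

theorem ev_gap (ob : OB c C D g u eg eu) {φ : X → ℝ} (hφ : LT eX φ)
    (he : ∀ᵐ x : X, φ (rf x) = φ x) (ho : ∫ x, g x ^ 2 * φ x = 0) :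
    2 * c * ∫ x, g x ^ 2 * φ x ^ 2 ≤ ∫ x, g x ^ 2 * dot eX φ φ x := by
  have hg : LH eX g := ob.hg.lh (ev_g_bdd ob)
  have hF : LT eX fun x => g x * φ x := hg.mul_LT hφ
  have hG : LT eX fun x => g x * φ x ^ 2 := hg.mul_LT (ev_lt_sq hφ)
  have gap := ob.gap _ hF.h1
  have eq := ob.eqg _ hG.h1
  have e1 : ip g (fun x => g x * φ x) = 0 := by
    rw [← ho]; exact integral_congr_ae (ae_of_all _ fun x => by simp only; ring)
  have e2 : ip u (fun x => g x * φ x) = 0 := integral_odd (by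
    filter_upwards [he] with x hx
    rw [hx, ob.u_odd, ob.g_even]; ring)
  have e3 : ip (fun x => g x * φ x) (fun x => g x * φ x) = ∫ x, g x ^ 2 * φ x ^ 2 :=
    integral_congr_ae (ae_of_all _ fun x => by simp only; ring)
  have e4 : ip g (fun x => g x * φ x ^ 2) = ∫ x, g x ^ 2 * φ x ^ 2 :=
    integral_congr_ae (ae_of_all _ fun x => by simp only; ring)
  have e5 : dir eX (fun x => g x * φ x) (fun x => g x * φ x) =
      dir eX g (fun x => g x * φ x ^ 2) + ∫ x, g x ^ 2 * dot eX φ φ x := by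
    unfold dir
    rw [← integral_add (hg.1.integrable_dot hG)
      (ev_int_dot (w := fun x => g x ^ 2) hφ ((ev_aesm hg.1).pow 2) hg.sq.1.2)]
    exact integral_congr_ae (hg.dot_mul hφ.1)
  have e6 : ∫ x, V D x * (g x * φ x) * (g x * φ x) = ∫ x, V D x * g x * (g x * φ x ^ 2) :=
    integral_congr_ae (ae_of_all _ fun x => by simp only; ring)
  have h0 : 0 ≤ ∫ x, g x ^ 2 * φ x ^ 2 := integral_nonneg fun x => by positivity
  unfold qf at gap eq
  rw [e1, e2, e3, e5, e6] at gap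
  rw [e4] at eq
  nlinarith [mul_nonneg (sub_pos.2 ob.lt).le h0]

theorem ev_inner (ob : OB c C D g u eg eu) {R0 : ℝ} (hR : 0 < R0) {Q : X → ℝ} (hQ : Integrable Q)
    (hQ0 : ∀ x, 0 ≤ Q x) {M : ℝ} (hQM : ∀ᵐ x : X, |Q x| ≤ M)
    (hle : ∀ᵐ x : X, ‖x‖ ≤ 4 * R0 → g x ^ 2 ≤ Q x) :
    ∃ G : X → ℝ, Integrable G ∧ LocBdd G ∧ (∀ x, 0 ≤ G x) ∧ (∀ x : X, ‖x‖ ≤ 3 * R0 → G x = g x ^ 2) ∧
      ∀ η : X → ℝ, H1 eX η → ∀ k : ℝ, (∀ᵐ x : X, |η x| ≤ k) → (∀ᵐ x : X, η (rf x) = η x) →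
        ∃ κ : ℝ, c * ∫ x, G x * (η x - κ) ^ 2 ≤
          (∫ x, Q x * dot eX η η x) + R0⁻¹ ^ 2 * ∫ x, Q x * (η x - κ) ^ 2 := by
  have hg : LH eX g := ob.hg.lh (ev_g_bdd ob)
  have hχ := evc_lh (ev_affine ev_norm.1 (-R0⁻¹) 4).1 (L := R0⁻¹ ^ 2) (by positivity) (by
    filter_upwards [(ev_affine ev_norm.1 (-R0⁻¹) 4).2, ev_norm.2] with x a1 a2
    rw [a1, neg_sq]; exact mul_le_of_le_one_right (by positivity) a2)
  set χ := evc fun x : X => -R0⁻¹ * ‖x‖ + 4 with hχdef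
  have hχ0 : ∀ x : X, 4 * R0 < ‖x‖ → χ x = 0 := fun x hx => evc_zero (by
    have : 4 ≤ R0⁻¹ * ‖x‖ := by rw [le_inv_mul_iff₀ hR]; linarith
    linarith)
  have hχ1 : ∀ x : X, ‖x‖ ≤ 3 * R0 → χ x = 1 := fun x hx => evc_one (by
    have : R0⁻¹ * ‖x‖ ≤ 3 := by rw [inv_mul_le_iff₀ hR]; linarith
    linarith)
  have hχ2 : ∀ x, χ x ^ 2 ≤ 1 := fun x => pow_le_one₀ (evc_nn _ x) (evc_le _ x)
  have hχe : ∀ x, χ (rf x) = χ x := fun x => by simp only [hχdef, evc, norm_rf]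
  have hχT : LT eX χ := ⟨hχ.1, 4 * R0, ae_of_all _ hχ0⟩
  have hg2 : AEStronglyMeasurable (fun x => g x ^ 2) volume := (ev_aesm hg.1).pow 2
  refine ⟨fun x => g x ^ 2 * χ x ^ 2, ev_int_sq hχT hg2 hg.sq.1.2, (hg.sq.1.mul hχ.1.sq.1).2,
    fun x => by positivity, fun x hx => by simp only [hχ1 x hx]; ring, fun η hη k hk he => ?_⟩
  have hηL : LH eX η := hη.lh hk
  have i0 : Integrable fun x => g x * g x * χ x := hχT.integrable_mul hg.1.1 hg.1.1
  have i1 : Integrable fun x => g x * g x * (χ x * η x) :=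
    (ev_lt_mul hχT hηL).integrable_mul hg.1.1 hg.1.1
  obtain ⟨κ, hκ⟩ : ∃ κ : ℝ, ∫ x, g x * g x * (χ x * η x) = κ * ∫ x, g x * g x * χ x := by
    by_cases h : ∫ x, g x * g x * χ x = 0
    · refine ⟨0, ?_⟩
      rw [zero_mul]
      have := (integral_eq_zero_iff_of_nonneg
        (fun x => mul_nonneg (mul_self_nonneg _) (evc_nn _ x)) i0).1 h
      refine integral_eq_zero_of_ae ?_
      filter_upwards [this] with x hx
      have hx' : g x * g x * χ x = 0 := hx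
      rw [← mul_assoc, hx', zero_mul]; rfl
    · exact ⟨_, (div_mul_cancel₀ _ h).symm⟩
  have hζ := ev_affine hηL 1 (-κ)
  set ζ : X → ℝ := fun x => 1 * η x + -κ with hζdef
  have hζe : ∀ x, ζ x = η x - κ := fun x => by simp only [hζdef]; ring
  have hφ : LT eX fun x => χ x * ζ x := ev_lt_mul hχT hζ.1
  have H := ev_gap ob hφ (by
    filter_upwards [he] with x hx
    rw [hχe, hζe, hζe, hx]) (by
    rw [← sub_eq_zero, ← integral_const_mul, ← integral_sub i1 (i0.const_mul κ)] at hκ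
    rw [← hκ]
    exact integral_congr_ae (ae_of_all _ fun x => by simp only [hζe]; ring))
  refine ⟨κ, ?_⟩
  have j1 : Integrable fun x => Q x * dot eX η η x :=
    (hη.integrable_dot hη).bdd_mul hQ.1 (c := M) hQM
  have j2 : Integrable fun x => Q x * (η x - κ) ^ 2 :=
    ev_int_bdd hQ (ζ := fun x => η x - κ) ((ev_aesm hη.hl).sub aestronglyMeasurable_const)
      (k := k + |κ|) (hk.mono fun x hx => (abs_sub _ _).trans (by linarith))
  have e1 : ∫ x, g x ^ 2 * χ x ^ 2 * (η x - κ) ^ 2 = ∫ x, g x ^ 2 * (χ x * ζ x) ^ 2 :=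
    integral_congr_ae (ae_of_all _ fun x => by simp only [hζe]; ring)
  have e2 : ∫ x, g x ^ 2 * dot eX (fun x => χ x * ζ x) (fun x => χ x * ζ x) x ≤
      2 * ((∫ x, Q x * dot eX η η x) + R0⁻¹ ^ 2 * ∫ x, Q x * (η x - κ) ^ 2) := by
    rw [← integral_const_mul, ← integral_add j1 (j2.const_mul _), ← integral_const_mul]
    refine integral_mono_ae (ev_int_dot hφ hg2 hg.sq.1.2) ((j1.add (j2.const_mul _)).const_mul _) ?_
    filter_upwards [hle, ev_dot_mul hχ.1 hζ.1 ev_two, hχ.2, ev_dot_zero hφ.1.1, hζ.2]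
      with x a1 a2 a3 a4 a8
    have a5 := dot_self_nonneg (b := eX) η x
    have a6 := hQ0 x
    by_cases h : ‖x‖ ≤ 4 * R0
    · have a7 : dot eX (fun x => χ x * ζ x) (fun x => χ x * ζ x) x ≤
          2 * (ζ x ^ 2 * R0⁻¹ ^ 2) + 2 * dot eX η η x := by
        rw [a8] at a2
        nlinarith [mul_le_mul_of_nonneg_left a3 (sq_nonneg (ζ x)), mul_le_mul_of_nonneg_right (hχ2 x) a5]
      have := mul_le_mul (a1 h) a7 (dot_self_nonneg _ x) a6
      rw [hζe] at this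
      linarith
    · rw [a4 (by rw [hχ0 x (not_le.1 h), zero_mul]), mul_zero]
      positivity
  rw [e1]
  linarith

end Crest.Agent.R335
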