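/-
R335/EV/Slab: the Hardy inequality in the far slab (block EV).
-/
import Crest.Agent.R335.EV.Tool

set_option autoImplicit false
set_option linter.unusedSectionVars false
set_option linter.unusedVariables false
set_option linter.unusedSimpArgs false

noncomputable section

namespace Crest.Agent.R335

open MeasureTheory Set Filter Topology Metric
open scoped ENNReal

theorem ev_hasF (i : Fin 3) (x : X) :
    HasFDerivAt (fun y : X => y i) (EuclideanSpace.proj (𝕜 := ℝ) i : X →L[ℝ] ℝ) x :=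
  (EuclideanSpace.proj (𝕜 := ℝ) i : X →L[ℝ] ℝ).hasFDerivAt

theorem ev_fd {Φ : ℝ → ℝ} {Φ' : ℝ} (x : X) (h : HasDerivAt Φ Φ' (x 0 ^ 2 + x 1 ^ 2)) (i : Fin 3) :
    fderiv ℝ (fun y : X => Φ (y 0 ^ 2 + y 1 ^ 2) * y i) x (eX i) =
      Φ' * (2 * x 0 * eX i 0 + 2 * x 1 * eX i 1) * x i + Φ (x 0 ^ 2 + x 1 ^ 2) := by
  have h1 := ((ev_hasF 0 x).pow 2).add ((ev_hasF 1 x).pow 2)
  have h2 := (h.comp_hasFDerivAt x h1).mul (ev_hasF i x)
  have h3 : HasFDerivAt (fun y : X => Φ (y 0 ^ 2 + y 1 ^ 2) * y i) _ x := h2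
  rw [h3.fderiv]
  fin_cases i <;> simp [eX] <;> ring

/-- the cut-off in the vertical variable -/
def evz (t : ℝ) : ℝ := Real.smoothTransition (5 * (3 - t)) * Real.smoothTransition (5 * (3 + t))

theorem evz_cd : ContDiff ℝ 1 evz := by
  unfold evz
  exact (Real.smoothTransition.contDiff.comp (by fun_prop)).mul
    (Real.smoothTransition.contDiff.comp (by fun_prop))

theorem evz_sq_le (t : ℝ) : evz t ^ 2 ≤ 1 :=
  pow_le_one₀ (mul_nonneg (Real.smoothTransition.nonneg _) (Real.smoothTransition.nonneg _))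
    (mul_le_one₀ (Real.smoothTransition.le_one _) (Real.smoothTransition.nonneg _)
      (Real.smoothTransition.le_one _))

theorem evz_one {t : ℝ} (h : |t| ≤ 14 / 5) : evz t = 1 := by
  rw [abs_le] at h
  unfold evz
  rw [Real.smoothTransition.one_of_one_le (by linarith), Real.smoothTransition.one_of_one_le (by linarith),
    mul_one]

theorem evz_zero {t : ℝ} (h : 3 < |t|) : evz t = 0 := by
  unfold evz
  rcases lt_abs.1 h with h | h
  · rw [Real.smoothTransition.zero_of_nonpos (by linarith), zero_mul]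
  · rw [Real.smoothTransition.zero_of_nonpos (x := 5 * (3 + t)) (by linarith), mul_zero]

theorem ev_slab {R0 : ℝ} (hR0 : 100 ≤ R0) {Pi : ℝ → ℝ} (hPi : ContDiffOn ℝ 1 Pi (Ioi (R0 / 2)))
    (hd : ∀ s, R0 / 2 < s → 0 < Pi s ∧ deriv Pi s ≤ -Pi s / 2) {Q : X → ℝ}
    (hQ : AEStronglyMeasurable Q volume) (hQb : LocBdd Q) (hQ0 : ∀ x, 0 ≤ Q x)
    (hle : ∀ᵐ x : X, |x 2| ≤ 3 → R0 ≤ sx x → Pi (sx x) ^ 2 ≤ Q x) :
    ∃ T : X → ℝ, AEStronglyMeasurable T volume ∧ (∀ x, 0 ≤ T x) ∧ (∀ᵐ x : X, T x ≤ Q x) ∧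
      (∀ x : X, |x 2| ≤ 14 / 5 → 2 * R0 ≤ sx x → T x = Pi (sx x) ^ 2) ∧
      ∀ ζ : X → ℝ, LT eX ζ → ∫ x, T x * ζ x ^ 2 ≤
        32 * (∫ x, Q x * dot eX ζ ζ x) + 32 / R0 ^ 2 * ∫ x, Q x * ζ x ^ 2 := by
  have hR : 0 < R0 := by linarith
  set cut : ℝ → ℝ := fun s => Real.smoothTransition (10 / (3 * R0) * s - 2) with hcut
  have hcd : ContDiff ℝ 1 cut := Real.smoothTransition.contDiff.comp (by fun_prop)
  have hc0 : ∀ s, s < 3 / 5 * R0 → cut s = 0 := fun s hs => by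
    refine Real.smoothTransition.zero_of_nonpos ?_
    rw [sub_nonpos, div_mul_eq_mul_div, div_le_iff₀ (by positivity)]; linarith
  have hc1 : ∀ s, 9 / 10 * R0 < s → cut s = 1 := fun s hs => by
    refine Real.smoothTransition.one_of_one_le ?_
    rw [le_sub_iff_add_le, div_mul_eq_mul_div, le_div_iff₀ (by positivity)]; linarith
  have hPa : ∀ s, R0 / 2 < s → ContDiffAt ℝ 1 Pi s := fun s hs => hPi.contDiffAt (Ioi_mem_nhds hs)
  set ψ : ℝ → ℝ := fun s => cut s * Pi s with hψ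
  have hψd : ContDiff ℝ 1 ψ := by
    refine contDiff_iff_contDiffAt.2 fun s => ?_
    by_cases hs : R0 / 2 < s
    · exact hcd.contDiffAt.mul (hPa s hs)
    · refine (contDiffAt_const (c := (0 : ℝ))).congr_of_eventuallyEq ?_
      filter_upwards [Iio_mem_nhds (show s < 3 / 5 * R0 by linarith)] with t ht
      simp only [hψ, hc0 t ht, zero_mul]
  set Φ : ℝ → ℝ := fun q => ψ (√q) ^ 2 / √q with hΦ
  have hΦd : ContDiff ℝ 1 Φ := by
    refine contDiff_iff_contDiffAt.2 fun q => ?_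
    by_cases hq : 0 < q
    · have h1 : ContDiffAt ℝ 1 (fun q => √q) q := Real.contDiffAt_sqrt hq.ne'
      exact ((hψd.contDiffAt.comp q h1).pow 2).div h1 (Real.sqrt_pos.2 hq).ne'
    · refine (contDiffAt_const (c := (0 : ℝ))).congr_of_eventuallyEq ?_
      have : √q < 3 / 5 * R0 := by rw [Real.sqrt_eq_zero'.2 (not_lt.1 hq)]; positivity
      filter_upwards [Real.continuous_sqrt.continuousAt.eventually (Iio_mem_nhds this)] with t ht
      simp only [hΦ, hψ, hc0 _ ht, zero_mul]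
      simp
  set w : Fin 3 → X → ℝ := fun i y => (if i = 2 then 0 else 1) * (Φ (y 0 ^ 2 + y 1 ^ 2) * y i) with hw
  have hco : ∀ i, ContDiff ℝ 1 fun y : X => y i := fun i =>
    (EuclideanSpace.proj (𝕜 := ℝ) i : X →L[ℝ] ℝ).contDiff
  have hwd : ∀ i, ContDiff ℝ 1 (w i) := fun i =>
    contDiff_const.mul ((hΦd.comp (((hco 0).pow 2).add ((hco 1).pow 2))).mul (hco i))
  set p : X → ℝ := fun x => ψ (sx x) / √2 with hp
  have hpc : Continuous p := (hψd.continuous.comp ev_sx_cont).div_const _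
  have hp2 : ∀ x, R0 < sx x → p x ^ 2 = Pi (sx x) ^ 2 / 2 := fun x hx => by
    simp only [hp, hψ, hc1 _ (show 9 / 10 * R0 < sx x by linarith), one_mul, div_pow]
    rw [Real.sq_sqrt (by norm_num)]
  set χ : X → ℝ := fun x => evz (x 2) with hχ
  have hχd : ContDiff ℝ 1 χ := evz_cd.comp (hco 2)
  have hθ := evc_lh (ev_affine ev_sx.1 R0⁻¹ (-1)).1 (L := R0⁻¹ ^ 2) (by positivity) (by
    filter_upwards [(ev_affine ev_sx.1 R0⁻¹ (-1)).2, ev_sx.2] with x a1 a2
    rw [a1]; exact mul_le_of_le_one_right (by positivity) a2)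
  set θ := evc fun x => R0⁻¹ * sx x + -1 with hθdef
  have hθ0 : ∀ x, ¬ R0 < sx x → θ x = 0 := fun x hx => evc_zero (by
    have : R0⁻¹ * sx x ≤ 1 := by rw [inv_mul_le_iff₀ hR]; linarith
    linarith)
  have hθ2 : ∀ x, θ x ^ 2 ≤ 1 := fun x => pow_le_one₀ (evc_nn _ x) (evc_le _ x)
  have hpχ : ∀ᵐ x : X, R0 < sx x → p x ^ 2 * χ x ^ 2 ≤ Q x / 2 := by
    filter_upwards [hle] with x hx h1
    by_cases h2 : |x 2| ≤ 3
    · rw [hp2 x h1]
      have := hx h2 h1.le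
      nlinarith [evz_sq_le (x 2), sq_nonneg (Pi (sx x))]
    · simp only [hχ, evz_zero (not_le.1 h2)]
      have := hQ0 x
      nlinarith
  have hm : AEStronglyMeasurable (fun x => p x ^ 2 * χ x ^ 2) volume :=
    ((hpc.pow 2).mul (hχd.continuous.pow 2)).aestronglyMeasurable
  have hb : LocBdd fun x => p x ^ 2 * χ x ^ 2 :=
    LocBdd.of_continuous ((hpc.pow 2).mul (hχd.continuous.pow 2))
  refine ⟨fun x => 2 * (p x ^ 2 * χ x ^ 2 * θ x ^ 2), (hm.mul ((ev_aesm hθ.1.1).pow 2)).const_mul _,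
    fun x => by positivity, ?_, fun x h1 h2 => ?_, fun ζ hζ => ?_⟩
  · filter_upwards [hpχ] with x hx
    by_cases h : R0 < sx x
    · nlinarith [hx h, hθ2 x, mul_nonneg (sq_nonneg (p x)) (sq_nonneg (χ x))]
    · rw [hθ0 x h]; simpa using hQ0 x
  · have h3 : θ x = 1 := evc_one (by
      have : 2 ≤ R0⁻¹ * sx x := by rw [le_inv_mul_iff₀ hR]; linarith
      linarith)
    simp only [hχ, evz_one h1, h3, hp2 x (by linarith)]
    ring
  have hζ' : LT eX fun x => θ x * ζ x := hθ.1.mul_LT hζ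
  have H := hardy_field hwd hpc hχd hζ' (A := 2) (S := {x | R0 < sx x})
    (ae_of_all _ fun x hx => by rw [hθ0 x hx, zero_mul]) (isOpen_lt continuous_const ev_sx_cont)
    (fun x hx => ?_) (fun x hx => ?_) (fun x hx => ?_)
  · have e1 : ∫ x, 2 * (p x ^ 2 * χ x ^ 2 * θ x ^ 2) * ζ x ^ 2 =
        2 * ∫ x, p x ^ 2 * χ x ^ 2 * (θ x * ζ x) ^ 2 := by
      rw [← integral_const_mul]
      exact integral_congr_ae (ae_of_all _ fun x => by simp only; ring)
    have i1 := ev_int_dot hζ hQ hQb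
    have i2 := ev_int_sq hζ hQ hQb
    have e2 : ∫ x, p x ^ 2 * χ x ^ 2 * dot eX (fun x => θ x * ζ x) (fun x => θ x * ζ x) x ≤
        (∫ x, Q x * dot eX ζ ζ x) + R0⁻¹ ^ 2 * ∫ x, Q x * ζ x ^ 2 := by
      rw [← integral_const_mul, ← integral_add i1 (i2.const_mul _)]
      refine integral_mono_ae (ev_int_dot hζ' hm hb) (i1.add (i2.const_mul _)) ?_
      filter_upwards [hpχ, ev_dot_mul hθ.1 hζ.1 ev_two, hθ.2, ev_dot_zero hζ'.1.1] with x a1 a2 a3 a4
      have a5 := dot_self_nonneg (b := eX) ζ x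
      have a6 := hQ0 x
      by_cases h : R0 < sx x
      · have a7 : dot eX (fun x => θ x * ζ x) (fun x => θ x * ζ x) x ≤
            2 * (ζ x ^ 2 * R0⁻¹ ^ 2) + 2 * dot eX ζ ζ x := by
          nlinarith [mul_le_mul_of_nonneg_left a3 (sq_nonneg (ζ x)), mul_le_mul_of_nonneg_right (hθ2 x) a5]
        have := mul_le_mul (a1 h) a7 (dot_self_nonneg _ x) (by positivity)
        linarith
      · rw [a4 (by rw [hθ0 x h, zero_mul]), mul_zero]
        positivity
    rw [e1, div_eq_mul_inv, ← inv_pow]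
    linarith
  · have hx' : R0 < sx x := hx
    set s := sx x with hs
    have hs0 : 0 < s := by linarith
    have hq : s ^ 2 = x 0 ^ 2 + x 1 ^ 2 := Real.sq_sqrt (by positivity)
    have hq0 : x 0 ^ 2 + x 1 ^ 2 ≠ 0 := by rw [← hq]; positivity
    have d1 : HasDerivAt (fun q => √q) (1 / (2 * s)) (x 0 ^ 2 + x 1 ^ 2) := Real.hasDerivAt_sqrt hq0
    have d2 : HasDerivAt Pi (deriv Pi s) √(x 0 ^ 2 + x 1 ^ 2) :=
      ((hPa s (by linarith)).differentiableAt one_ne_zero).hasDerivAt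
    have d3 := ((d2.comp _ d1).pow 2).div d1 hs0.ne'
    have d4 : HasDerivAt Φ _ (x 0 ^ 2 + x 1 ^ 2) := d3.congr_of_eventuallyEq (by
      filter_upwards [Real.continuous_sqrt.continuousAt.eventually
        (Ioi_mem_nhds (show 9 / 10 * R0 < √(x 0 ^ 2 + x 1 ^ 2) by change _ < s; linarith))] with t ht
      simp only [hΦ, hψ, hc1 _ ht, one_mul]
      rfl)
    have e0 : w 0 = fun y : X => Φ (y 0 ^ 2 + y 1 ^ 2) * y 0 := by funext y; simp [hw]
    have e1 : w 1 = fun y : X => Φ (y 0 ^ 2 + y 1 ^ 2) * y 1 := by funext y; simp [hw]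
    have e2 : w 2 = fun _ : X => (0 : ℝ) := by funext y; simp [hw]
    have e3 : Φ (x 0 ^ 2 + x 1 ^ 2) = Pi s ^ 2 / s := by
      have : √(x 0 ^ 2 + x 1 ^ 2) = s := rfl
      simp only [hΦ, hψ, this, hc1 s (by linarith), one_mul]
    rw [Fin.sum_univ_three, e0, e1, e2, ev_fd x d4, ev_fd x d4, e3, hp2 x hx]
    have : √(x 0 ^ 2 + x 1 ^ 2) = s := rfl
    simp only [Function.comp, _root_.Pi.pow_apply, this, eX]
    simp
    try simp only [this, ← hs]
    obtain ⟨b1, b2⟩ := hd s (by linarith)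
    have b3 : Pi s ^ 2 / s ≤ Pi s ^ 2 / 2 := div_le_div_of_nonneg_left (by positivity) two_pos (by linarith)
    have b4 : (2 * Pi s * (deriv Pi s * (s⁻¹ * 2⁻¹)) * s - Pi s ^ 2 * (s⁻¹ * 2⁻¹)) / s ^ 2 * (2 * x 0) * x 0 +
        Pi s ^ 2 / s + ((2 * Pi s * (deriv Pi s * (s⁻¹ * 2⁻¹)) * s - Pi s ^ 2 * (s⁻¹ * 2⁻¹)) / s ^ 2 *
          (2 * x 1) * x 1 + Pi s ^ 2 / s) = 2 * Pi s * deriv Pi s + Pi s ^ 2 / s := by
      have : x 1 ^ 2 = s ^ 2 - x 0 ^ 2 := by linarith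
      field_simp
      rw [this]; ring
    rw [b4]
    nlinarith
  · have hx' : R0 < sx x := hx
    have hs0 : 0 < sx x := by linarith
    have hq : sx x ^ 2 = x 0 ^ 2 + x 1 ^ 2 := Real.sq_sqrt (by positivity)
    have e3 : Φ (x 0 ^ 2 + x 1 ^ 2) = Pi (sx x) ^ 2 / sx x := by
      have : √(x 0 ^ 2 + x 1 ^ 2) = sx x := rfl
      simp only [hΦ, hψ, this, hc1 (sx x) (by linarith), one_mul]
    have e4 : p x ^ 4 = (Pi (sx x) ^ 2 / 2) ^ 2 := by rw [← hp2 x hx]; ring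
    simp only [Fin.sum_univ_three, hw, e3, e4]
    simp
    apply le_of_eq
    have : x 1 ^ 2 = sx x ^ 2 - x 0 ^ 2 := by linarith
    field_simp
    rw [this]; ring
  · have d0 : HasDerivAt evz (deriv evz (x 2)) (x 2) :=
      ((evz_cd.differentiable one_ne_zero) (x 2)).hasDerivAt
    have d2 := HasDerivAt.comp_hasFDerivAt (f := fun y : X => y 2) x d0 (ev_hasF 2 x)
    have d1 : HasFDerivAt χ _ x := d2
    rw [d1.fderiv]
    simp [Fin.sum_univ_three, hw, eX]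

end Crest.Agent.R335
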