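/-
R335/EV/Main: block EV (see R335/Notes)
Skeleton by helper48 (row 335); keep the statements unchanged, add any helper lemmas you like.
-/
import Crest.Agent.R335.RT.Main
import Crest.Agent.R335.Assemble
import Crest.Agent.R335.EV.Slab
import Crest.Agent.R335.EV.Inner
import Crest.Agent.R335.EV.Core

set_option autoImplicit false
set_option linter.unusedSectionVars false
set_option linter.unusedVariables false
set_option linter.unusedSimpArgs false

noncomputable section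

namespace Crest.Agent.R335

open MeasureTheory Set Filter Topology Metric
open scoped ENNReal


theorem ev_arith {c B L K R0 Λ'' I J g : ℝ} (hc : 0 < c) (hB : 0 ≤ B) (hL : 0 ≤ L) (hK : 1 ≤ K)
    (h1 : 1 ≤ Λ'') (h2 : 4 * (1920 + 64 * B * L + 4 * B * L * c⁻¹) ≤ Λ'') (hR : Λ'' * K ≤ R0)
    (hI : 0 ≤ I) (hJ : 0 ≤ J)
    (H1 : I / 2 - 4 * B * g - 32 * B * K ^ 2 * L / R0 ^ 2 * I ≤ 2 * (960 + 32 * B * K ^ 2 * L) * J)
    (H2 : c * g ≤ L * J + R0⁻¹ ^ 2 * (L * I)) : I ≤ Λ'' * K ^ 2 * J := by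
  have hK2 : 1 ≤ K ^ 2 := one_le_pow₀ hK
  have hR0 : 0 < R0 := lt_of_lt_of_le (by positivity) hR
  have hci : 0 < c⁻¹ := inv_pos.2 hc
  set ρ := R0⁻¹ ^ 2 with hρ
  have hρ0 : 0 ≤ ρ := by positivity
  have hρ1 : ρ * (Λ'' * K ^ 2) ≤ 1 := by
    rw [hρ, inv_pow, inv_mul_le_iff₀ (by positivity), mul_one]
    have := pow_le_pow_left₀ (by positivity) hR 2
    nlinarith [mul_nonneg (mul_nonneg (zero_le_one.trans h1) (sub_nonneg.2 h1)) (sq_nonneg K)]
  have H3 : g ≤ c⁻¹ * (L * J + ρ * (L * I)) := by rwa [le_inv_mul_iff₀ hc]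
  rw [div_eq_mul_inv _ (R0 ^ 2), ← inv_pow, ← hρ] at H1
  have H4 := mul_le_mul_of_nonneg_left H3 hB
  set q := B * L with hq
  have hq0 : 0 ≤ q := mul_nonneg hB hL
  have hqc : 0 ≤ q * c⁻¹ := by positivity
  set Q := 1920 + 64 * q + 4 * (q * c⁻¹) with hQ
  have h3 : 4 * Q ≤ Λ'' := by rw [hQ, hq]; linarith
  have h4 : ρ * (32 * q * K ^ 2 + 4 * (q * c⁻¹)) ≤ 1 / 4 := by
    have a1 : 32 * q * K ^ 2 + 4 * (q * c⁻¹) ≤ Q * K ^ 2 := by
      rw [hQ]; nlinarith [mul_le_mul_of_nonneg_left hK2 hqc, mul_nonneg hq0 (sq_nonneg K)]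
    have a2 : 4 * Q * K ^ 2 ≤ Λ'' * K ^ 2 := mul_le_mul_of_nonneg_right h3 (sq_nonneg K)
    nlinarith [mul_le_mul_of_nonneg_left a1 hρ0, mul_le_mul_of_nonneg_left a2 hρ0]
  have h5 : 1920 + 64 * q * K ^ 2 + 4 * (q * c⁻¹) ≤ Q * K ^ 2 := by
    rw [hQ]; nlinarith [mul_le_mul_of_nonneg_left hK2 hqc]
  have h6 := mul_le_mul_of_nonneg_right h4 hI
  have h7 := mul_le_mul_of_nonneg_right h5 hJ
  have h8 := mul_le_mul_of_nonneg_right (mul_le_mul_of_nonneg_right h3 (sq_nonneg K)) hJ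
  rw [hq] at h6 h7
  linarith

theorem stEven : StEven := by
  intro c C Λ Λ' hΛ'
  set B := 32000 * Λ ^ 4 with hBdef
  have hB : 0 ≤ B := by positivity
  refine ⟨max 1 (4 * (1920 + 64 * B * Λ' ^ 2 + 4 * B * Λ' ^ 2 * c⁻¹)), le_max_left _ _, ?_⟩
  intro D g u eg eu C1 C2 K R0 ϱ l M η0 m2 de f δ P b ob ch pr ce hδ hR low η hη ⟨k, hk⟩ hev
  have hD := ob.D_ge
  have hR0 := pr.R0_ge
  have hRp : 0 < R0 := by linarith
  obtain ⟨hP, -, hPM, -⟩ := ce.lh ch.R_bdd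
  have iP : Integrable fun x => P x ^ 2 := ce.hP.1.integrable_sq
  have hP2 := hP.sq.1
  have hPb : ∀ᵐ x : X, |P x ^ 2| ≤ M ^ 2 := hPM.mono fun x hx => by
    rw [abs_pow]; exact pow_le_pow_left₀ (abs_nonneg _) hx.1 2
  have iQ : Integrable fun x => Λ' ^ 2 * P x ^ 2 := iP.const_mul _
  obtain ⟨Pi, hPi, hd, hsl⟩ := pr.slab
  obtain ⟨T, hT, hT0, hTQ, hT1, hT2⟩ := ev_slab (by linarith) hPi hd (Q := fun x => Λ' ^ 2 * P x ^ 2) iQ.1
    (hP2.const_mul _).2 (fun x => by positivity) (by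
      filter_upwards [hsl, low] with x a1 a2 h1 h2
      rw [← mul_pow]
      exact pow_le_pow_left₀ (hd _ (by linarith)).1.le ((a1 h1 h2).1.trans (a2 (Or.inr h1))) 2)
  obtain ⟨G, iG, hGb, hG0, hG1, hG2⟩ := ev_inner ob hRp (Q := fun x => Λ' ^ 2 * P x ^ 2) iQ
    (fun x => by positivity) (M := Λ' ^ 2 * M ^ 2) (hPb.mono fun x hx => by
      rw [abs_mul, abs_of_nonneg (sq_nonneg Λ')]; exact mul_le_mul_of_nonneg_left hx (sq_nonneg _)) (by
      filter_upwards [pr.inner, low] with x a1 a2 h1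
      rw [← mul_pow]
      exact pow_le_pow_left₀ (ob.g_nn x) ((a1 (by linarith)).1.trans (a2 (Or.inl h1))) 2)
  have hTb : LocBdd T := fun R => ((hP2.const_mul (Λ' ^ 2)).2 R).imp fun m hm => by
    filter_upwards [hm, hTQ] with x a1 a2 h
    rw [abs_of_nonneg (hT0 x)]
    exact a2.trans ((le_abs_self _).trans (a1 h))
  have hle : ∀ᵐ x : X, 0 < x 2 → x 2 < 14 / 5 ∨ ‖x‖ < 2 * R0 + 14 / 5 →
      f.e x ^ 2 ≤ 4 * G x + K ^ 2 * T x := by
    filter_upwards [pr.inner, hsl, pr.pos.ae_pos] with x a1 a2 a3 h1 h2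
    have b1 := hG0 x
    have b2 := mul_nonneg (sq_nonneg K) (hT0 x)
    by_cases h : ‖x‖ ≤ 3 * R0
    · have := pow_le_pow_left₀ a3.le (a1 (by linarith)).2 2
      rw [hG1 x h]
      linarith
    · have h3 : x 2 < 14 / 5 := h2.resolve_right (by linarith)
      have h4 : 2 * R0 ≤ sx x := by
        refine Real.le_sqrt_of_sq_le ?_
        have := cov_sq x
        rw [Fin.sum_univ_three] at this
        nlinarith [pow_le_pow_left₀ (by positivity) (not_le.1 h).le 2]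
      have h5 : |x 2| ≤ 14 / 5 := by rw [abs_of_pos h1]; exact h3.le
      have := pow_le_pow_left₀ a3.le (a2 (by linarith) (by linarith)).2 2
      rw [hT1 x h5 h4]
      linarith
  have iI : Integrable (Hs.indicator fun x => P x ^ 2) := iP.indicator measurableSet_Hs
  have split : ∀ ζ : X → ℝ, Integrable (fun x => Hs.indicator (fun x => P x ^ 2) x * ζ x ^ 2) →
      Integrable (fun x => G x * ζ x ^ 2) → Integrable (fun x => P x ^ 2 * ζ x ^ 2) →
      ∫ x, (Hs.indicator (fun x => P x ^ 2) x - 4 * B * G x -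
        32 * B * K ^ 2 * Λ' ^ 2 / R0 ^ 2 * P x ^ 2) * ζ x ^ 2 =
      (∫ x, Hs.indicator (fun x => P x ^ 2) x * ζ x ^ 2) - 4 * B * (∫ x, G x * ζ x ^ 2) -
        32 * B * K ^ 2 * Λ' ^ 2 / R0 ^ 2 * ∫ x, P x ^ 2 * ζ x ^ 2 := fun ζ i1 i2 i3 => by
    have k1 : Integrable fun x => Hs.indicator (fun x => P x ^ 2) x * ζ x ^ 2 - 4 * B * (G x * ζ x ^ 2) :=
      i1.sub (i2.const_mul _)
    rw [← integral_const_mul, ← integral_const_mul, ← integral_sub i1 (i2.const_mul _),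
      ← integral_sub k1 (i3.const_mul _)]
    exact integral_congr_ae (ae_of_all _ fun x => by simp only; ring)
  have hQi : ∀ F : X → ℝ, ∫ x, Λ' ^ 2 * P x ^ 2 * F x = Λ' ^ 2 * ∫ x, P x ^ 2 * F x := fun F => by
    rw [← integral_const_mul]
    exact integral_congr_ae (ae_of_all _ fun x => by simp only; ring)
  obtain ⟨κ, hκ⟩ := hG2 η hη k hk hev
  have hζ := ev_affine (hη.lh hk) 1 (-κ)
  have e0 : (fun x => 1 * η x + -κ) = fun x => η x - κ := by funext x; ring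
  rw [e0] at hζ
  set ζ := fun x => η x - κ with hζdef
  have hζd : dot eX ζ ζ =ᵐ[volume] dot eX η η := hζ.2.mono fun x hx => by rw [hx]; ring
  have hζk : ∀ᵐ x : X, |ζ x| ≤ k + |κ| := hk.mono fun x hx => (abs_sub _ _).trans (by linarith)
  have hζm := ev_aesm hζ.1.1
  have lim := ev_limit (W := fun x => Hs.indicator (fun x => P x ^ 2) x - 4 * B * G x -
      32 * B * K ^ 2 * Λ' ^ 2 / R0 ^ 2 * P x ^ 2) ((iI.sub (iG.const_mul _)).sub (iP.const_mul _)) iP
    (fun x => sq_nonneg _) hPb (A := 960 + 32 * B * K ^ 2 * Λ' ^ 2) (by positivity) (fun φ hφ => ?_)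
    hζ.1.1 hζk ((hη.integrable_dot hη).congr hζd.symm)
  swap
  · obtain ⟨m, hm⟩ := hφ.bdd
    have hφm := ev_aesm hφ.1.1
    have a1 := ev_core (by linarith) ch pr ce hδ (H := fun x => 4 * G x + K ^ 2 * T x)
      ((iG.1.const_mul _).add (hT.const_mul _)) ((hGb.const_mul _).add (hTb.const_mul _))
      (fun x => by have := hG0 x; have := hT0 x; positivity) hle hφ
    have a2 : ∫ x, (4 * G x + K ^ 2 * T x) * φ x ^ 2 =
        4 * (∫ x, G x * φ x ^ 2) + K ^ 2 * ∫ x, T x * φ x ^ 2 := by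
      rw [← integral_const_mul, ← integral_const_mul, ← integral_add
        ((ev_int_bdd iG hφm hm).const_mul _) ((ev_int_sq hφ hT hTb).const_mul _)]
      exact integral_congr_ae (ae_of_all _ fun x => by simp only; ring)
    have a3 := mul_le_mul_of_nonneg_left (hT2 φ hφ) (mul_nonneg hB (sq_nonneg K))
    rw [hQi, hQi] at a3
    rw [a2, ← hBdef] at a1
    rw [split φ (ev_int_bdd iI hφm hm) (ev_int_bdd iG hφm hm) (ev_int_bdd iP hφm hm)]
    have a4 : B * K ^ 2 * (32 / R0 ^ 2 * (Λ' ^ 2 * ∫ x, P x ^ 2 * φ x ^ 2)) =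
        32 * B * K ^ 2 * Λ' ^ 2 / R0 ^ 2 * ∫ x, P x ^ 2 * φ x ^ 2 := by ring
    linarith
  have iζ := ev_int_bdd iP hζm hζk
  rw [split ζ (ev_int_bdd iI hζm hζk) (ev_int_bdd iG hζm hζk) iζ] at lim
  have e1 : ∫ x, Hs.indicator (fun x => P x ^ 2) x * ζ x ^ 2 = (∫ x, P x ^ 2 * ζ x ^ 2) / 2 := by
    rw [integral_even iζ (by
      filter_upwards [hev] with x hx
      simp only [hζdef, hx, ce.P_even]), ← integral_indicator measurableSet_Hs, mul_div_cancel_left₀ _ two_ne_zero]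
    refine integral_congr_ae (ae_of_all _ fun x => ?_)
    by_cases hx : x ∈ Hs <;> simp [hx]
  have e2 : ∫ x, P x ^ 2 * dot eX ζ ζ x = ∫ x, P x ^ 2 * dot eX η η x :=
    integral_congr_ae (hζd.mono fun x hx => by simp only [hx])
  rw [e1, e2] at lim
  rw [hQi, hQi] at hκ
  have fin := ev_arith ob.c_pos hB (sq_nonneg Λ') pr.K_ge (le_max_left _ _) (le_max_right _ _) hR
    (integral_nonneg fun x => by positivity)
    (integral_nonneg fun x => mul_nonneg (sq_nonneg _) (dot_self_nonneg _ x)) lim hκ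
  refine le_trans ?_ fin
  have j1 : Integrable fun x => P x ^ 2 * η x ^ 2 := ev_int_bdd iP (ev_aesm hη.hl) hk
  have j2 : Integrable fun x => P x ^ 2 * η x := iP.mul_bdd (ev_aesm hη.hl) (c := k) hk
  have j3 : Integrable fun x => P x ^ 2 * η x ^ 2 - 2 * κ * (P x ^ 2 * η x) := j1.sub (j2.const_mul _)
  have e3 : ∫ x, P x ^ 2 = 2 := by
    rw [← ce.nP]
    exact integral_congr_ae (ae_of_all _ fun x => by simp only; ring)
  have e4 : ∫ x, P x ^ 2 * ζ x ^ 2 =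
      (∫ x, P x ^ 2 * η x ^ 2) - 2 * κ * (∫ x, P x ^ 2 * η x) + κ ^ 2 * ∫ x, P x ^ 2 := by
    rw [← integral_const_mul, ← integral_const_mul, ← integral_sub j1 (j2.const_mul _),
      ← integral_add j3 (iP.const_mul _)]
    exact integral_congr_ae (ae_of_all _ fun x => by simp only [hζdef]; ring)
  rw [e4, e3]
  nlinarith [sq_nonneg ((∫ x, P x ^ 2 * η x) - 2 * κ)]

end Crest.Agent.R335
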